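import Mathlib

/-! # Colourings of the unit sphere without orthogonal monochromatic pairs -/

open scoped RealInnerProductSpace

namespace P052H704

universe u v

/-- a colouring of `E` which is even, such that unit vectors of the same colour have inner product
of absolute value more than `ε` -/
structure Col (E : Type u) [NormedAddCommGroup E] [InnerProductSpace ℝ E] (κ : Type v) where
  c : E → κ
  neg : ∀ x, c (-x) = c x
  ε : ℝ
  pos : 0 < ε
  far : ∀ x y, ‖x‖ = 1 → ‖y‖ = 1 → c x = c y → ε < |⟪x, y⟫|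

variable {E : Type u} [NormedAddCommGroup E] [InnerProductSpace ℝ E] {κ : Type v}

namespace Col

variable (χ : Col E κ)

/-- the closure of a colour class on the unit sphere -/
def F (i : κ) : Set E := closure {x | ‖x‖ = 1 ∧ χ.c x = i}

/-- the colours met by a subspace -/
def C (U : Submodule ℝ E) : Set κ := {i | ∃ y ∈ U, y ∈ χ.F i}

lemma isClosed_F (i : κ) : IsClosed (χ.F i) := isClosed_closure

lemma mem_F {x : E} (hx : ‖x‖ = 1) : x ∈ χ.F (χ.c x) := subset_closure ⟨hx, rfl⟩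

lemma norm_of_mem {x : E} {i : κ} (hx : x ∈ χ.F i) : ‖x‖ = 1 := by
  have h1 : IsClosed {x : E | ‖x‖ = 1} := isClosed_eq continuous_norm continuous_const
  exact closure_minimal (fun y hy => hy.1) h1 hx

lemma neg_mem {x : E} {i : κ} (hx : x ∈ χ.F i) : -x ∈ χ.F i := by
  have h1 : IsClosed {x : E | -x ∈ χ.F i} := (χ.isClosed_F i).preimage continuous_neg
  have h2 : {x | ‖x‖ = 1 ∧ χ.c x = i} ⊆ {x : E | -x ∈ χ.F i} := by
    intro y hy
    refine subset_closure (?_ : ‖-y‖ = 1 ∧ χ.c (-y) = i)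
    exact ⟨by rw [norm_neg]; exact hy.1, by rw [χ.neg]; exact hy.2⟩
  exact closure_minimal h2 h1 hx

lemma far' {x y : E} {i : κ} (hx : x ∈ χ.F i) (hy : y ∈ χ.F i) : χ.ε ≤ |⟪x, y⟫| := by
  have h1 : ∀ y, ‖y‖ = 1 → χ.c y = i → ∀ x ∈ χ.F i, χ.ε ≤ |⟪x, y⟫| := by
    intro y hy1 hy2 x hx
    have h2 : IsClosed {x : E | χ.ε ≤ |⟪x, y⟫|} :=
      isClosed_le continuous_const (continuous_abs.comp (continuous_id.inner continuous_const))
    exact closure_minimal (fun z hz => (χ.far z y hz.1 hy1 (hz.2.trans hy2.symm)).le) h2 hx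
  have h2 : IsClosed {y : E | χ.ε ≤ |⟪x, y⟫|} :=
    isClosed_le continuous_const (continuous_abs.comp (continuous_const.inner continuous_id))
  exact closure_minimal (fun z hz => h1 z hz.1 hz.2 x hx) h2 hy

lemma not_both {x y : E} {i : κ} (hxy : ⟪x, y⟫ = 0) (hx : x ∈ χ.F i) (hy : y ∈ χ.F i) : False := by
  have h1 := χ.far' hx hy
  rw [hxy, abs_zero] at h1
  exact absurd χ.pos (not_lt.2 h1)

lemma ne_zero_of_mem {x : E} {i : κ} (hx : x ∈ χ.F i) : x ≠ 0 := by
  rintro rfl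
  have h1 := χ.norm_of_mem hx
  rw [norm_zero] at h1
  exact zero_ne_one h1

lemma C_mono {U V : Submodule ℝ E} (h : U ≤ V) : χ.C U ⊆ χ.C V := by
  rintro i ⟨y, hy, h1⟩
  exact ⟨y, h hy, h1⟩

/-- every nonzero vector gives a colour -/
lemma exists_unit {U : Submodule ℝ E} {x : E} (hxU : x ∈ U) (hx : x ≠ 0) :
    ∃ y ∈ U, ‖y‖ = 1 ∧ y = (‖x‖)⁻¹ • x ∧ χ.c y ∈ χ.C U := by
  have h1 : ‖(‖x‖)⁻¹ • x‖ = 1 := by
    rw [norm_smul, norm_inv, norm_norm, inv_mul_cancel₀ (norm_ne_zero_iff.2 hx)]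
  exact ⟨(‖x‖)⁻¹ • x, U.smul_mem _ hxU, h1, rfl, _, U.smul_mem _ hxU, χ.mem_F h1⟩

lemma C_nonempty {U : Submodule ℝ E} (hU : U ≠ ⊥) : (χ.C U).Nonempty := by
  obtain ⟨x, hx, h0⟩ := U.ne_bot_iff.1 hU
  obtain ⟨y, -, -, -, h⟩ := χ.exists_unit hx h0
  exact ⟨_, h⟩

/-- orthogonal subspaces have disjoint sets of colours -/
lemma C_disjoint {U V : Submodule ℝ E} (h : U ⟂ V) : Disjoint (χ.C U) (χ.C V) := by
  rw [Set.disjoint_left]
  rintro i ⟨x, hx, hxi⟩ ⟨y, hy, hyi⟩
  exact χ.not_both (Submodule.isOrtho_iff_inner_eq.1 h x hx y hy) hxi hyi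

lemma C_disjoint' (U : Submodule ℝ E) : Disjoint (χ.C U) (χ.C Uᗮ) :=
  χ.C_disjoint U.isOrtho_orthogonal_right

/-- the colours of a sum of subspaces: dimension count -/
lemma finrank_le_of_subset [FiniteDimensional ℝ E] {ι : Type*} (s : Finset ι)
    (U : Submodule ℝ E) (V : ι → Submodule ℝ E) (h : χ.C U ⊆ ⋃ a ∈ s, χ.C (V a)) :
    Module.finrank ℝ U ≤ ∑ a ∈ s, Module.finrank ℝ (V a) := by
  classical
  set W : Submodule ℝ E := ⨆ a ∈ s, V a with hW
  have h1 : Module.finrank ℝ W ≤ ∑ a ∈ s, Module.finrank ℝ (V a) := by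
    rw [hW]
    clear h hW W
    induction s using Finset.induction_on with
    | empty => simp
    | insert a s ha ih =>
      rw [Finset.sum_insert ha, Finset.iSup_insert]
      exact (Submodule.finrank_add_le_finrank_add_finrank _ _).trans (by gcongr)
  have h2 : U ⊓ Wᗮ = ⊥ := by
    by_contra hne
    obtain ⟨i, y, hy, hyi⟩ := χ.C_nonempty hne
    obtain ⟨a, ha, hia⟩ := Set.mem_iUnion₂.1 (h ⟨y, hy.1, hyi⟩)
    have h3 : V a ⟂ Wᗮ := by
      have h4 : V a ≤ W := le_iSup₂_of_le a ha le_rfl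
      exact (Submodule.isOrtho_orthogonal_right W).mono_left h4
    exact (Set.disjoint_left.1 (χ.C_disjoint h3)) hia ⟨y, hy.2, hyi⟩
  have h3 := Submodule.finrank_sup_add_finrank_inf_eq U Wᗮ
  have h4 := W.finrank_add_finrank_orthogonal
  have h5 : Module.finrank ℝ (U ⊔ Wᗮ : Submodule ℝ E) ≤ Module.finrank ℝ E :=
    Submodule.finrank_le _
  rw [h2, finrank_bot] at h3
  omega

lemma finrank_le_of_subset₁ [FiniteDimensional ℝ E] {U V : Submodule ℝ E} (h : χ.C U ⊆ χ.C V) :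
    Module.finrank ℝ U ≤ Module.finrank ℝ V := by
  have := χ.finrank_le_of_subset ({()} : Finset Unit) U (fun _ => V)
    (h.trans (by intro i hi; exact Set.mem_iUnion₂.2 ⟨(), by simp, hi⟩))
  simpa using this

lemma finrank_le_of_subset₂ [FiniteDimensional ℝ E] {U V W : Submodule ℝ E}
    (h : χ.C U ⊆ χ.C V ∪ χ.C W) :
    Module.finrank ℝ U ≤ Module.finrank ℝ V + Module.finrank ℝ W := by
  have := χ.finrank_le_of_subset (Finset.univ : Finset Bool) U
    (fun b => if b then V else W) (by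
      intro i hi
      rcases h hi with h1 | h1
      · exact Set.mem_iUnion₂.2 ⟨true, Finset.mem_univ _, by simpa using h1⟩
      · exact Set.mem_iUnion₂.2 ⟨false, Finset.mem_univ _, by simpa using h1⟩)
  simpa using this

/-- two orthonormal vectors span a plane with at least three colours -/
theorem three_colours {U : Submodule ℝ E} {e f : E} (he : e ∈ U) (hf : f ∈ U) (he1 : ‖e‖ = 1)
    (hf1 : ‖f‖ = 1) (hef : ⟪e, f⟫ = 0) (a b : κ) (h : χ.C U ⊆ {a, b}) : False := by
  have hu : ∀ θ : ℝ, ‖Real.cos θ • e + Real.sin θ • f‖ = 1 := by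
    intro θ
    have h1 : ‖Real.cos θ • e + Real.sin θ • f‖ ^ 2 = 1 := by
      rw [norm_add_sq_real, inner_smul_left, inner_smul_right, hef, norm_smul, norm_smul, he1, hf1]
      simp
    have h2 := norm_nonneg (Real.cos θ • e + Real.sin θ • f)
    nlinarith
  have hU : ∀ θ : ℝ, Real.cos θ • e + Real.sin θ • f ∈ U := fun θ =>
    U.add_mem (U.smul_mem _ he) (U.smul_mem _ hf)
  have ho : ∀ θ : ℝ, ⟪Real.cos θ • e + Real.sin θ • f,
      Real.cos (θ + Real.pi / 2) • e + Real.sin (θ + Real.pi / 2) • f⟫ = 0 := by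
    intro θ
    have hfe : ⟪f, e⟫ = 0 := by rw [real_inner_comm]; exact hef
    rw [Real.cos_add_pi_div_two, Real.sin_add_pi_div_two]
    simp only [inner_add_left, inner_add_right, inner_smul_left, inner_smul_right, hef, hfe,
      real_inner_self_eq_norm_sq, he1, hf1]
    simp
    ring
  have hc : Continuous (fun θ : ℝ => Real.cos θ • e + Real.sin θ • f) := by fun_prop
  set A : Set ℝ := (fun θ : ℝ => Real.cos θ • e + Real.sin θ • f) ⁻¹' χ.F a with hA
  set B : Set ℝ := (fun θ : ℝ => Real.cos θ • e + Real.sin θ • f) ⁻¹' χ.F b with hB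
  have hAc : IsClosed A := (χ.isClosed_F a).preimage hc
  have hBc : IsClosed B := (χ.isClosed_F b).preimage hc
  have hAB : ∀ θ, θ ∈ A ∨ θ ∈ B := by
    intro θ
    have h1 := χ.mem_F (hu θ)
    have h2 : χ.c (Real.cos θ • e + Real.sin θ • f) ∈ χ.C U := ⟨_, hU θ, h1⟩
    rcases h h2 with h3 | h3
    · left; rw [h3] at h1; exact h1
    · right; rw [Set.mem_singleton_iff.1 h3] at h1; exact h1
  have hdis : ∀ θ, θ ∈ A → θ ∈ B → False := by
    intro θ h1 h2
    rcases hAB (θ + Real.pi / 2) with h3 | h3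
    · exact χ.not_both (ho θ) h1 h3
    · exact χ.not_both (ho θ) h2 h3
  have hcompl : A = Bᶜ := by
    ext θ
    constructor
    · intro h1 h2; exact hdis θ h1 h2
    · intro h1; exact (hAB θ).resolve_right h1
  have hclopen : IsClopen A := ⟨hAc, by rw [hcompl]; exact hBc.isOpen_compl⟩
  rcases isClopen_iff.1 hclopen with h1 | h1
  · have h2 : (0 : ℝ) ∈ B := (hAB 0).resolve_left (by rw [h1]; exact Set.notMem_empty _)
    have h3 : (0 + Real.pi / 2 : ℝ) ∈ B :=
      (hAB _).resolve_left (by rw [h1]; exact Set.notMem_empty _)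
    exact χ.not_both (ho 0) h2 h3
  · have h2 : (0 : ℝ) ∈ A := by rw [h1]; exact Set.mem_univ _
    have h3 : (0 + Real.pi / 2 : ℝ) ∈ A := by rw [h1]; exact Set.mem_univ _
    exact χ.not_both (ho 0) h2 h3

/-- subspaces with at most two colours are lines (or zero) -/
theorem parallel_of_two_colours {U : Submodule ℝ E} (a b : κ) (h : χ.C U ⊆ {a, b}) {x y : E}
    (hx : x ∈ U) (hy : y ∈ U) (hx1 : ‖x‖ = 1) (hy1 : ‖y‖ = 1) : y = x ∨ y = -x := by
  set z : E := y - ⟪x, y⟫ • x with hz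
  have hzU : z ∈ U := U.sub_mem hy (U.smul_mem _ hx)
  have hxz : ⟪x, z⟫ = 0 := by
    rw [hz, inner_sub_right, inner_smul_right, real_inner_self_eq_norm_sq, hx1]; ring
  by_cases hz0 : z = 0
  · have h1 : y = ⟪x, y⟫ • x := sub_eq_zero.1 hz0
    have h2 : |⟪x, y⟫| = 1 := by
      have h3 := congrArg norm h1
      rw [norm_smul, hx1, hy1, mul_one, Real.norm_eq_abs] at h3
      exact h3.symm
    rcases abs_eq (zero_le_one (α := ℝ)) |>.1 h2 with h3 | h3
    · left; rw [h1, h3, one_smul]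
    · right; rw [h1, h3, neg_smul, one_smul]
  · exfalso
    have h1 : ‖(‖z‖)⁻¹ • z‖ = 1 := by
      rw [norm_smul, norm_inv, norm_norm, inv_mul_cancel₀ (norm_ne_zero_iff.2 hz0)]
    exact χ.three_colours hx (U.smul_mem (‖z‖)⁻¹ hzU) hx1 h1
      (by rw [inner_smul_right, hxz, mul_zero]) a b h

end Col

end P052H704
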