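import Vale.Agent.P052.R2.H704.Col

/-! # Top eigenvectors and labels of symmetric maps -/

open scoped RealInnerProductSpace

namespace P052H704

universe u v

/-- the sign of a boolean -/
def sgn (b : Bool) : ℝ := if b then 1 else -1

@[simp] lemma sgn_true : sgn true = 1 := rfl

@[simp] lemma sgn_false : sgn false = -1 := rfl

lemma sgn_not (b : Bool) : sgn (!b) = -sgn b := by cases b <;> simp

lemma sgn_sq (b : Bool) : sgn b * sgn b = 1 := by cases b <;> simp

/-- choice of a representative of `{A, -A}` -/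
lemma exists_rep (V : Type*) [AddGroup V] :
    ∃ r : V → V, (∀ A, r (-A) = r A) ∧ ∀ A, r A = A ∨ r A = -A := by
  let S : Setoid V :=
    { r := fun A B => A = B ∨ A = -B
      iseqv :=
        { refl := fun A => Or.inl rfl
          symm := by
            rintro A B (h | h)
            · exact Or.inl h.symm
            · exact Or.inr (by rw [h, neg_neg])
          trans := by
            rintro A B C (rfl | rfl) (rfl | rfl)
            · exact Or.inl rfl
            · exact Or.inr rfl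
            · exact Or.inr rfl
            · exact Or.inl (neg_neg _) } }
  refine ⟨fun A => (Quotient.mk S A).out, fun A => ?_, fun A => ?_⟩
  · have h : Quotient.mk S (-A) = Quotient.mk S A := Quotient.sound (Or.inr rfl)
    show (Quotient.mk S (-A)).out = (Quotient.mk S A).out
    rw [h]
  · exact Quotient.mk_out (s := S) A

variable {E : Type u} [NormedAddCommGroup E] [InnerProductSpace ℝ E]

/-- symmetric continuous linear maps -/
def Sy (A : E →L[ℝ] E) : Prop := ∀ x y, ⟪A x, y⟫ = ⟪x, A y⟫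

lemma Sy.neg {A : E →L[ℝ] E} (h : Sy A) : Sy (-A) := by
  intro x y
  simp only [neg_apply, inner_neg_left, inner_neg_right, h x y]

/-- top eigenvectors exist -/
lemma exists_top [FiniteDimensional ℝ E] (A : E →L[ℝ] E) (hA : Sy A) (h0 : A ≠ 0) :
    ∃ (b : Bool) (v : E), ‖v‖ = 1 ∧ A v = (sgn b * ‖A‖) • v := by
  have hnt : ∃ x : E, x ≠ 0 := by
    by_contra hcon
    push Not at hcon
    apply h0
    ext x
    rw [hcon x, map_zero, map_zero]
  obtain ⟨x0, hx0⟩ := hnt
  have hne : (Metric.sphere (0 : E) 1).Nonempty := by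
    refine ⟨(‖x0‖)⁻¹ • x0, ?_⟩
    rw [mem_sphere_zero_iff_norm, norm_smul, norm_inv, norm_norm,
      inv_mul_cancel₀ (norm_ne_zero_iff.2 hx0)]
  have : ProperSpace E := FiniteDimensional.proper_real E
  obtain ⟨u, hu, hmax⟩ := (isCompact_sphere (0 : E) 1).exists_isMaxOn hne
    (f := fun x => ‖A x‖) (by fun_prop)
  have hu1 : ‖u‖ = 1 := mem_sphere_zero_iff_norm.1 hu
  have h1 : ‖A‖ ≤ ‖A u‖ := by
    refine A.opNorm_le_bound (norm_nonneg _) (fun x => ?_)
    by_cases hx : x = 0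
    · rw [hx, map_zero, norm_zero, mul_zero]
    · have hx' : ‖x‖ ≠ 0 := norm_ne_zero_iff.2 hx
      have h2 : (‖x‖)⁻¹ • x ∈ Metric.sphere (0 : E) 1 := by
        rw [mem_sphere_zero_iff_norm, norm_smul, norm_inv, norm_norm, inv_mul_cancel₀ hx']
      have h3 := hmax h2
      simp only [Set.mem_ofPred_eq, map_smul, norm_smul, norm_inv, norm_norm] at h3
      calc ‖A x‖ = ((‖x‖)⁻¹ * ‖A x‖) * ‖x‖ := by field_simp
        _ ≤ ‖A u‖ * ‖x‖ := by gcongr
  have h2 : ‖A u‖ = ‖A‖ := le_antisymm (by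
    have := A.le_opNorm u
    rwa [hu1, mul_one] at this) h1
  set a := ‖A‖ with ha
  have ha0 : 0 < a := norm_pos_iff.2 h0
  have h3 : A (A u) = (a ^ 2) • u := by
    have h4 : ‖A (A u) - (a ^ 2) • u‖ ^ 2 ≤ 0 := by
      rw [norm_sub_sq_real, inner_smul_right, hA (A u) u, real_inner_self_eq_norm_sq, h2,
        norm_smul, hu1]
      have h5 : ‖A (A u)‖ ≤ a * a := by
        have := A.le_opNorm (A u)
        rwa [h2] at this
      have h6 : ‖A (A u)‖ ^ 2 ≤ (a * a) ^ 2 := by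
        exact pow_le_pow_left₀ (norm_nonneg _) h5 2
      have h7 : ‖(a ^ 2 : ℝ)‖ = a ^ 2 := by rw [Real.norm_eq_abs]; exact abs_of_nonneg (sq_nonneg _)
      rw [h7]
      nlinarith
    have h5 : ‖A (A u) - (a ^ 2) • u‖ = 0 := by
      have := norm_nonneg (A (A u) - (a ^ 2) • u)
      nlinarith
    exact sub_eq_zero.1 (norm_eq_zero.1 h5)
  by_cases hw : A u + a • u = 0
  · refine ⟨false, u, hu1, ?_⟩
    rw [sgn_false, eq_neg_of_add_eq_zero_left hw]
    simp
  · refine ⟨true, (‖A u + a • u‖)⁻¹ • (A u + a • u), ?_, ?_⟩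
    · rw [norm_smul, norm_inv, norm_norm, inv_mul_cancel₀ (norm_ne_zero_iff.2 hw)]
    · rw [sgn_true, one_mul, map_smul, map_add, map_smul, h3, smul_comm a]
      congr 1
      rw [smul_add, smul_smul, add_comm, sq]

variable {κ : Type v}

/-- labels of the nonzero symmetric maps: the sign `sg A`, the top eigenvector `v A` (its colour
`χ.c (v A)` is the colour of the label) and fixed vectors `w i` of all colours -/
structure Lab (χ : Col E κ) where
  sg : (E →L[ℝ] E) → Bool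
  v : (E →L[ℝ] E) → E
  w : κ → E
  norm_v : ∀ A, Sy A → A ≠ 0 → ‖v A‖ = 1
  eig : ∀ A, Sy A → A ≠ 0 → A (v A) = (sgn (sg A) * ‖A‖) • v A
  v_neg : ∀ A, A ≠ 0 → v (-A) = v A
  sg_neg : ∀ A, A ≠ 0 → sg (-A) = !(sg A)
  lift : ∀ A, Sy A → A ≠ 0 → χ.ε < ⟪v A, w (χ.c (v A))⟫
  norm_w : ∀ x, ‖x‖ = 1 → ‖w (χ.c x)‖ = 1
  col_w : ∀ x, ‖x‖ = 1 → χ.c (w (χ.c x)) = χ.c x

theorem exists_lab [FiniteDimensional ℝ E] (χ : Col E κ) : Nonempty (Lab χ) := by
  classical
  obtain ⟨r, hr1, hr2⟩ := exists_rep (E →L[ℝ] E)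
  -- fixed vectors
  let w : κ → E := fun i => if h : ∃ x, ‖x‖ = 1 ∧ χ.c x = i then h.choose else 0
  have hw : ∀ x, ‖x‖ = 1 → ‖w (χ.c x)‖ = 1 ∧ χ.c (w (χ.c x)) = χ.c x := by
    intro x hx
    have h : ∃ y, ‖y‖ = 1 ∧ χ.c y = χ.c x := ⟨x, hx, rfl⟩
    have h1 : w (χ.c x) = h.choose := dif_pos h
    rw [h1]
    exact h.choose_spec
  -- choice of eigenvectors
  have hex : ∀ A : E →L[ℝ] E, ∃ (b : Bool) (v : E), Sy A → A ≠ 0 →
      ‖v‖ = 1 ∧ A v = (sgn b * ‖A‖) • v ∧ χ.ε < ⟪v, w (χ.c v)⟫ := by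
    intro A
    by_cases hA : Sy A ∧ A ≠ 0
    · obtain ⟨b, v, hv, hAv⟩ := exists_top A hA.1 hA.2
      have h1 := χ.far v (w (χ.c v)) hv (hw v hv).1 (hw v hv).2.symm
      rcases lt_abs.1 h1 with h2 | h2
      · exact ⟨b, v, fun _ _ => ⟨hv, hAv, h2⟩⟩
      · refine ⟨b, -v, fun _ _ => ⟨by rw [norm_neg, hv], by rw [map_neg, hAv, smul_neg], ?_⟩⟩
        rw [χ.neg, inner_neg_left]
        exact h2
    · exact ⟨true, 0, fun h1 h2 => absurd ⟨h1, h2⟩ hA⟩
  choose b0 v0 h0 using hex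
  have hrS : ∀ A, Sy A → Sy (r A) := by
    intro A hA
    rcases hr2 A with h | h
    · rw [h]; exact hA
    · rw [h]; exact hA.neg
  have hr0 : ∀ A, A ≠ 0 → r A ≠ 0 := by
    intro A hA
    rcases hr2 A with h | h
    · rw [h]; exact hA
    · rw [h]; exact neg_ne_zero.2 hA
  have hne : ∀ A : E →L[ℝ] E, A ≠ 0 → A ≠ -A := by
    intro A hA h
    apply hA
    have h1 : (2 : ℝ) • A = 0 := by
      rw [two_smul]
      nth_rw 2 [h]
      exact add_neg_cancel A
    exact (smul_eq_zero.1 h1).resolve_left two_ne_zero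
  refine ⟨{ sg := fun A => if r A = A then b0 (r A) else !(b0 (r A))
            v := fun A => v0 (r A)
            w := w
            norm_v := fun A hA hA0 => (h0 (r A) (hrS A hA) (hr0 A hA0)).1
            eig := ?_
            v_neg := fun A hA0 => by rw [hr1]
            sg_neg := ?_
            lift := fun A hA hA0 => (h0 (r A) (hrS A hA) (hr0 A hA0)).2.2
            norm_w := fun x hx => (hw x hx).1
            col_w := fun x hx => (hw x hx).2 }⟩
  · intro A hA hA0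
    have h1 := (h0 (r A) (hrS A hA) (hr0 A hA0)).2.1
    by_cases h2 : r A = A
    · rw [if_pos h2]
      rw [h2] at h1 ⊢
      exact h1
    · rw [if_neg h2]
      have h3 : r A = -A := (hr2 A).resolve_left h2
      rw [sgn_not]
      rw [h3] at h1 ⊢
      rw [neg_apply, norm_neg] at h1
      rw [neg_mul, neg_smul, ← h1, neg_neg]
  · intro A hA0
    by_cases h2 : r A = A
    · have h3 : ¬ r (-A) = -A := by
        rw [hr1, h2]
        exact hne A hA0
      show (if r (-A) = -A then b0 (r (-A)) else !(b0 (r (-A)))) =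
        !(if r A = A then b0 (r A) else !(b0 (r A)))
      rw [if_neg h3, if_pos h2, hr1]
    · have h3 : r A = -A := (hr2 A).resolve_left h2
      have h4 : r (-A) = -A := by rw [hr1, h3]
      show (if r (-A) = -A then b0 (r (-A)) else !(b0 (r (-A)))) =
        !(if r A = A then b0 (r A) else !(b0 (r A)))
      rw [if_pos h4, if_neg h2, hr1, Bool.not_not]

namespace Lab

variable {χ : Col E κ} (L : Lab χ)

/-- complementary labels are far apart -/
theorem no_compl {A B : E →L[ℝ] E} (hA : Sy A) (hA0 : A ≠ 0) (hB : Sy B) (hB0 : B ≠ 0)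
    (hs : L.sg B = !(L.sg A)) (hc : χ.c (L.v A) = χ.c (L.v B)) :
    (‖A‖ + ‖B‖) * χ.ε < ‖A - B‖ := by
  have h1 := L.eig A hA hA0
  have h2 := L.eig B hB hB0
  have h3 := χ.far _ _ (L.norm_v A hA hA0) (L.norm_v B hB hB0) hc
  have h4 : ⟪L.v A, (A - B) (L.v B)⟫ = (sgn (L.sg A) * (‖A‖ + ‖B‖)) * ⟪L.v A, L.v B⟫ := by
    rw [sub_apply, inner_sub_right, ← hA, h1, h2, inner_smul_left,
      inner_smul_right, hs, sgn_not]
    simp only [RCLike.conj_to_real]
    ring
  have h5 : |⟪L.v A, (A - B) (L.v B)⟫| ≤ ‖A - B‖ := by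
    refine (abs_real_inner_le_norm _ _).trans ?_
    rw [L.norm_v A hA hA0, one_mul]
    refine ((A - B).le_opNorm _).trans ?_
    rw [L.norm_v B hB hB0, mul_one]
  have h6 : |sgn (L.sg A)| = 1 := by cases L.sg A <;> simp
  have h7 : 0 < ‖A‖ + ‖B‖ := add_pos_of_pos_of_nonneg (norm_pos_iff.2 hA0) (norm_nonneg _)
  rw [h4, abs_mul, abs_mul, h6, one_mul, abs_of_pos h7] at h5
  calc (‖A‖ + ‖B‖) * χ.ε < (‖A‖ + ‖B‖) * |⟪L.v A, L.v B⟫| := by gcongr
    _ ≤ _ := h5

end Lab

end P052H704
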