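import Vale.Agent.P052.R2.H704.Lab

/-! # Localization: limits of fine families with prescribed labels -/

open scoped RealInnerProductSpace
open Filter Topology

namespace P052H704

universe u v

variable {E : Type u} [NormedAddCommGroup E] [InnerProductSpace ℝ E] [FiniteDimensional ℝ E]
  {κ : Type v} {χ : Col E κ}

/-- **Limits.** Finer and finer families in a compact set `K` with fixed labels have a
subsequence converging to one `M` in `K`, and the eigenvectors converge. -/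
theorem Lab.seqloc (L : Lab χ) {V : Type*} [PseudoMetricSpace V] {ι : Type*} [Finite ι]
    [Nonempty ι] {K : Set V} (hK : IsCompact K) (T : V → E →L[ℝ] E) (hT : Continuous T)
    (hsym : ∀ a ∈ K, Sy (T a)) (h0 : ∀ a ∈ K, T a ≠ 0) (a : ℕ → ι → V) (haK : ∀ n i, a n i ∈ K)
    (hd : ∀ n i j, dist (a n i) (a n j) < 1 / ((n : ℝ) + 1)) (b : ι → Bool)
    (hb : ∀ n i, L.sg (T (a n i)) = b i) (col : ι → κ)
    (hc : ∀ n i, χ.c (L.v (T (a n i))) = col i) :
    ∃ (φ : ℕ → ℕ) (M : V) (y : ι → E), StrictMono φ ∧ M ∈ K ∧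
      (∀ i, Tendsto (fun n => a (φ n) i) atTop (𝓝 M)) ∧
      (∀ i, Tendsto (fun n => L.v (T (a (φ n) i))) atTop (𝓝 (y i))) ∧
      ∀ i, ‖y i‖ = 1 ∧ T M (y i) = (sgn (b i) * ‖T M‖) • y i ∧ y i ∈ χ.F (col i) ∧
        χ.ε ≤ ⟪y i, L.w (col i)⟫ := by
  have : ProperSpace E := FiniteDimensional.proper_real E
  have hcomp : IsCompact (Set.univ.pi (fun _ : ι => K ×ˢ Metric.sphere (0 : E) 1)) :=
    isCompact_univ_pi (fun _ => hK.prod (isCompact_sphere 0 1))
  have hmem : ∀ n, (fun i => (a n i, L.v (T (a n i)))) ∈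
      Set.univ.pi (fun _ : ι => K ×ˢ Metric.sphere (0 : E) 1) := by
    intro n i _
    refine ⟨haK n i, ?_⟩
    rw [mem_sphere_zero_iff_norm]
    exact L.norm_v _ (hsym _ (haK n i)) (h0 _ (haK n i))
  obtain ⟨q, hq, φ, hφ, hlim⟩ := hcomp.tendsto_subseq hmem
  rw [tendsto_pi_nhds] at hlim
  have h1 : ∀ i, Tendsto (fun n => a (φ n) i) atTop (𝓝 (q i).1) := fun i =>
    (continuous_fst.tendsto _).comp (hlim i)
  have h2 : ∀ i, Tendsto (fun n => L.v (T (a (φ n) i))) atTop (𝓝 (q i).2) := fun i =>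
    (continuous_snd.tendsto _).comp (hlim i)
  obtain ⟨i0⟩ := (inferInstance : Nonempty ι)
  have h3 : ∀ i, Tendsto (fun n => a (φ n) i) atTop (𝓝 (q i0).1) := by
    intro i
    have h4 : Tendsto (fun n : ℕ => 1 / (((φ n : ℕ) : ℝ) + 1)) atTop (𝓝 0) :=
      tendsto_one_div_add_atTop_nhds_zero_nat.comp hφ.tendsto_atTop
    have h5 : Tendsto (fun n => dist (a (φ n) i0) (a (φ n) i)) atTop (𝓝 0) :=
      squeeze_zero (fun n => dist_nonneg) (fun n => (hd (φ n) i0 i).le) h4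
    exact (tendsto_iff_of_dist h5).1 (h1 i0)
  refine ⟨φ, (q i0).1, fun i => (q i).2, hφ, (hq i0 (Set.mem_univ _)).1, h3, h2, fun i => ?_⟩
  have hy1 : ‖(q i).2‖ = 1 := mem_sphere_zero_iff_norm.1 (hq i (Set.mem_univ _)).2
  refine ⟨hy1, ?_, ?_, ?_⟩
  · -- the eigenvector equation
    have h4 : Tendsto (fun n => T (a (φ n) i)) atTop (𝓝 (T (q i0).1)) :=
      (hT.tendsto _).comp (h3 i)
    have h5 : Tendsto (fun n => T (a (φ n) i) (L.v (T (a (φ n) i)))) atTop
        (𝓝 (T (q i0).1 (q i).2)) := by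
      have h6 : Continuous (fun z : (E →L[ℝ] E) × E => z.1 z.2) := by fun_prop
      exact (h6.tendsto (T (q i0).1, (q i).2)).comp (h4.prodMk_nhds (h2 i))
    have h6 : Tendsto (fun n => (sgn (b i) * ‖T (a (φ n) i)‖) • L.v (T (a (φ n) i))) atTop
        (𝓝 ((sgn (b i) * ‖T (q i0).1‖) • (q i).2)) :=
      (tendsto_const_nhds.mul h4.norm).smul (h2 i)
    refine tendsto_nhds_unique h5 (h6.congr (fun n => ?_))
    rw [L.eig _ (hsym _ (haK _ i)) (h0 _ (haK _ i)), hb]
  · -- the colour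
    refine (χ.isClosed_F (col i)).mem_of_tendsto (h2 i) (Eventually.of_forall (fun n => ?_))
    have h4 := χ.mem_F (L.norm_v _ (hsym _ (haK (φ n) i)) (h0 _ (haK (φ n) i)))
    rwa [hc] at h4
  · -- the lift
    have h4 : Tendsto (fun n => ⟪L.v (T (a (φ n) i)), L.w (col i)⟫) atTop
        (𝓝 ⟪(q i).2, L.w (col i)⟫) := (h2 i).inner tendsto_const_nhds
    refine ge_of_tendsto' h4 (fun n => ?_)
    have h5 := L.lift _ (hsym _ (haK (φ n) i)) (h0 _ (haK (φ n) i))
    rw [hc] at h5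
    exact h5.le

/-- the eigenspace of a map -/
def eigS (A : E →L[ℝ] E) (t : ℝ) : Submodule ℝ E where
  carrier := {x | A x = t • x}
  add_mem' := by
    intro x y hx hy
    simp only [Set.mem_ofPred_eq] at hx hy ⊢
    rw [map_add, hx, hy, smul_add]
  zero_mem' := by simp
  smul_mem' := by
    intro r x hx
    simp only [Set.mem_ofPred_eq] at hx ⊢
    rw [map_smul, hx, smul_comm]

omit [FiniteDimensional ℝ E] in
lemma mem_eigS {A : E →L[ℝ] E} {t : ℝ} {x : E} : x ∈ eigS A t ↔ A x = t • x := Iff.rfl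

omit [FiniteDimensional ℝ E] in
lemma eigS_ortho {A : E →L[ℝ] E} (hA : Sy A) {t t' : ℝ} (h : t ≠ t') :
    eigS A t ⟂ eigS A t' := by
  rw [Submodule.isOrtho_iff_inner_eq]
  intro x hx y hy
  have h1 := hA x y
  rw [mem_eigS.1 hx, mem_eigS.1 hy, inner_smul_left, inner_smul_right] at h1
  simp only [RCLike.conj_to_real] at h1
  have h2 : (t - t') * ⟪x, y⟫ = 0 := by linear_combination h1
  exact (mul_eq_zero.1 h2).resolve_left (sub_ne_zero.2 h)

/-- **Localization.** If there are arbitrarily fine families with all colours, positive exactly on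
`I`, then `I` is the set of colours of a subspace whose orthogonal complement has the other
colours. -/
theorem Lab.loc (L : Lab χ) {V : Type*} [PseudoMetricSpace V] [Finite κ] [Nonempty κ] {K : Set V}
    (hK : IsCompact K) (T : V → E →L[ℝ] E) (hT : Continuous T) (hsym : ∀ a ∈ K, Sy (T a))
    (h0 : ∀ a ∈ K, T a ≠ 0) (I : Set κ)
    (h : ∀ δ : ℝ, 0 < δ → ∃ a : κ → V, (∀ i, a i ∈ K) ∧ (∀ i j, dist (a i) (a j) < δ) ∧
      ∀ i, χ.c (L.v (T (a i))) = i ∧ (L.sg (T (a i)) = true ↔ i ∈ I)) :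
    ∃ U : Submodule ℝ E, χ.C U = I ∧ χ.C Uᗮ = Iᶜ := by
  classical
  choose a ha1 ha2 ha3 using fun n : ℕ => h (1 / ((n : ℝ) + 1)) (by positivity)
  obtain ⟨φ, M, y, -, hM, -, -, hy⟩ := L.seqloc hK T hT hsym h0 a ha1 ha2
    (fun i => decide (i ∈ I)) (by
      intro n i
      by_cases hi : i ∈ I
      · rw [(ha3 n i).2.2 hi, decide_eq_true hi]
      · have h1 : ¬ L.sg (T (a n i)) = true := fun h2 => hi ((ha3 n i).2.1 h2)
        rw [decide_eq_false hi]
        exact Bool.not_eq_true _ ▸ h1) id (fun n i => (ha3 n i).1)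
  have hMn : ‖T M‖ ≠ 0 := norm_ne_zero_iff.2 (h0 M hM)
  set U := eigS (T M) ‖T M‖ with hU
  set W := eigS (T M) (-‖T M‖) with hW
  have hUW : U ⟂ W := eigS_ortho (hsym M hM) (by
    intro h1
    exact hMn (self_eq_neg.1 h1))
  have hIU : I ⊆ χ.C U := by
    intro i hi
    obtain ⟨-, h2, h3, -⟩ := hy i
    refine ⟨y i, ?_, h3⟩
    rw [hU, mem_eigS, h2, decide_eq_true hi, sgn_true, one_mul]
  have hIW : Iᶜ ⊆ χ.C W := by
    intro i hi
    obtain ⟨-, h2, h3, -⟩ := hy i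
    refine ⟨y i, ?_, h3⟩
    rw [hW, mem_eigS, h2, decide_eq_false hi, sgn_false, neg_one_mul]
  have hd := χ.C_disjoint hUW
  have hCU : χ.C U = I := by
    refine Set.Subset.antisymm (fun i hi => ?_) hIU
    by_contra hi'
    exact (Set.disjoint_left.1 hd) hi (hIW hi')
  refine ⟨U, hCU, Set.Subset.antisymm (fun i hi => ?_) ?_⟩
  · intro hi'
    exact (Set.disjoint_left.1 (χ.C_disjoint' U)) (hIU hi') hi
  · have h1 : W ≤ Uᗮ := Submodule.isOrtho_iff_le.1 hUW.symm
    exact hIW.trans (χ.C_mono h1)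

end P052H704
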