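import Vale.Agent.P052.R2.H704.SymT

/-! # Subspaces with prescribed sets of colours -/

open scoped RealInnerProductSpace

namespace P052H704

universe u v

/-- The existence form of Fan's lemma for the labels `(sg, c)` on the set `K`: every sign pattern
`I` is realized by a small family with all the colours. -/
def FanEx (V : Type*) [NormedAddCommGroup V] (κ : Type*) (K : Set V) : Prop :=
  ∀ (sg : V → Bool) (c : V → κ),
    (∀ x, x ≠ 0 → sg (-x) = !(sg x)) → (∀ x, x ≠ 0 → c (-x) = c x) →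
    ∀ δ : ℝ, 0 < δ → (∀ x ∈ K, ∀ y ∈ K, dist x y < δ → c x = c y → sg y = sg x) →
    ∀ I : Set κ, ∃ a : κ → V, (∀ i, a i ∈ K) ∧ (∀ i j, dist (a i) (a j) < δ) ∧
      ∀ i, c (a i) = i ∧ (sg (a i) = true ↔ i ∈ I)

/-- change of the set of colours -/
lemma FanEx.congr {V : Type*} [NormedAddCommGroup V] {κ κ' : Type*} (e : κ ≃ κ') {K : Set V}
    (h : FanEx V κ K) : FanEx V κ' K := by
  intro sg c hsg hc δ hδ hn I
  obtain ⟨a, h1, h2, h3⟩ := h sg (fun x => e.symm (c x)) hsg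
    (fun x hx => by show e.symm (c (-x)) = e.symm (c x); rw [hc x hx]) δ hδ
    (fun x hx y hy hxy hcc => hn x hx y hy hxy (e.symm.injective hcc)) {i | e i ∈ I}
  refine ⟨fun i => a (e.symm i), fun i => h1 _, fun i j => h2 _ _, fun i => ⟨?_, ?_⟩⟩
  · have := (h3 (e.symm i)).1
    exact e.symm.injective this
  · rw [(h3 (e.symm i)).2]
    simp

/-- **Surjectivity.** -/
theorem surj {E : Type*} [NormedAddCommGroup E] [InnerProductSpace ℝ E] [FiniteDimensional ℝ E]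
    {κ : Type*} [Finite κ] [Nonempty κ] (χ : Col E κ) {V : Type*} [NormedAddCommGroup V]
    (T : V → E →L[ℝ] E) (hT : Continuous T) (hTn : ∀ x, T (-x) = -T x) (hsy : ∀ x, Sy (T x))
    (hT0 : ∀ x, x ≠ 0 → T x ≠ 0) {K : Set V} (hK : IsCompact K) (h0 : 0 ∉ K)
    (hno : ∀ L : Lab χ, ∃ δ : ℝ, 0 < δ ∧ ∀ a ∈ K, ∀ b ∈ K, dist a b < δ →
      χ.c (L.v (T a)) = χ.c (L.v (T b)) → L.sg (T b) = L.sg (T a))
    (hfan : FanEx V κ K) (I : Set κ) :
    ∃ U : Submodule ℝ E, χ.C U = I ∧ χ.C Uᗮ = Iᶜ := by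
  obtain ⟨L⟩ := exists_lab χ
  obtain ⟨δ0, hδ0, hn⟩ := hno L
  refine L.loc hK T hT (fun a _ => hsy a) (fun a ha => hT0 a (by rintro rfl; exact h0 ha)) I
    (fun δ hδ => ?_)
  obtain ⟨a, h1, h2, h3⟩ := hfan (fun x => L.sg (T x)) (fun x => χ.c (L.v (T x)))
    (fun x hx => by
      show L.sg (T (-x)) = !(L.sg (T x))
      rw [hTn, L.sg_neg _ (hT0 x hx)])
    (fun x hx => by
      show χ.c (L.v (T (-x))) = χ.c (L.v (T x))
      rw [hTn, L.v_neg _ (hT0 x hx)])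
    (min δ δ0) (lt_min hδ hδ0)
    (fun x hx y hy hxy hc => hn x hx y hy (hxy.trans_le (min_le_right _ _)) hc) I
  exact ⟨a, h1, fun i j => (h2 i j).trans_le (min_le_left _ _), h3⟩

section sub

variable {E : Type u} [NormedAddCommGroup E] [InnerProductSpace ℝ E] {κ : Type v}

open Classical in
/-- the colour of `j x`, restricted to the colours with `P` -/
noncomputable def pullc {E' : Type*} (c : E → κ) (j : E' → E) (P : κ → Prop) (i0 : {i // P i})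
    (x : E') : {i // P i} := if h : P (c (j x)) then ⟨c (j x), h⟩ else i0

omit [NormedAddCommGroup E] [InnerProductSpace ℝ E] in
lemma pullc_eq {E' : Type*} (c : E → κ) (j : E' → E) (P : κ → Prop) (i0 : {i // P i}) (x : E')
    (h : P (c (j x))) : pullc c j P i0 x = ⟨c (j x), h⟩ := dif_pos h

/-- the colouring induced on `ℝ ^ n` by an isometric embedding -/
noncomputable def Col.pull {n : ℕ} (χ : Col E κ) (j : EuclideanSpace ℝ (Fin n) →ₗᵢ[ℝ] E)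
    (P : κ → Prop) (i0 : {i // P i}) (hP : ∀ x, ‖x‖ = 1 → P (χ.c (j x))) :
    Col (EuclideanSpace ℝ (Fin n)) {i // P i} where
  c := pullc χ.c j P i0
  neg := fun x => by
    have h : χ.c (j (-x)) = χ.c (j x) := by rw [map_neg, χ.neg]
    by_cases h1 : P (χ.c (j x))
    · rw [pullc_eq _ _ _ _ x h1, pullc_eq _ _ _ _ (-x) (by rw [h]; exact h1)]
      exact Subtype.ext h
    · have h2 : ¬ P (χ.c (j (-x))) := by rw [h]; exact h1
      rw [pullc, pullc, dif_neg h2, dif_neg h1]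
  ε := χ.ε
  pos := χ.pos
  far := by
    intro x y hx hy hxy
    rw [pullc_eq _ _ _ _ _ (hP x hx), pullc_eq _ _ _ _ _ (hP y hy)] at hxy
    rw [← j.inner_map_map]
    exact χ.far _ _ (by rw [j.norm_map, hx]) (by rw [j.norm_map, hy]) (congrArg Subtype.val hxy)

lemma Col.pull_F {n : ℕ} (χ : Col E κ) (j : EuclideanSpace ℝ (Fin n) →ₗᵢ[ℝ] E)
    (P : κ → Prop) (i0 : {i // P i}) (hP : ∀ x, ‖x‖ = 1 → P (χ.c (j x))) {i : {i // P i}}
    {x : EuclideanSpace ℝ (Fin n)} (hx : x ∈ (χ.pull j P i0 hP).F i) : j x ∈ χ.F i := by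
  have h1 : IsClosed {x | j x ∈ χ.F (i : κ)} := (χ.isClosed_F _).preimage j.continuous
  have h2 : {x | ‖x‖ = 1 ∧ (χ.pull j P i0 hP).c x = i} ⊆ {x | j x ∈ χ.F (i : κ)} := by
    rintro y ⟨hy1, hy2⟩
    have h3 : (⟨χ.c (j y), hP y hy1⟩ : {i // P i}) = i := by
      rw [← hy2]
      exact (pullc_eq _ _ _ _ _ (hP y hy1)).symm
    have h4 := χ.mem_F (x := j y) (by rw [j.norm_map, hy1])
    rw [← h3]
    exact h4
  exact closure_minimal h2 h1 hx

/-- an isometric parametrization of a subspace -/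
lemma exists_param [FiniteDimensional ℝ E] (W : Submodule ℝ E) {n : ℕ}
    (hn : Module.finrank ℝ W = n) : ∃ j : EuclideanSpace ℝ (Fin n) →ₗᵢ[ℝ] E,
      LinearMap.range j.toLinearMap = W := by
  let b := (stdOrthonormalBasis ℝ W).reindex (finCongr hn)
  refine ⟨W.subtypeₗᵢ.comp b.repr.symm.toLinearIsometry, ?_⟩
  ext x
  constructor
  · rintro ⟨y, rfl⟩
    exact (b.repr.symm y).2
  · intro hx
    refine ⟨b.repr ⟨x, hx⟩, ?_⟩
    show ((b.repr.symm (b.repr ⟨x, hx⟩) : W) : E) = x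
    rw [b.repr.symm_apply_apply]

/-- **Surjectivity inside a subspace** `W`, for the colours which are not colours of `Wᗮ`. -/
theorem surj_sub [FiniteDimensional ℝ E] (χ : Col E κ) (W : Submodule ℝ E) {n : ℕ}
    (hn : Module.finrank ℝ W = n) [Finite κ] [Nonempty {i // i ∉ χ.C Wᗮ}]
    {V : Type*} [NormedAddCommGroup V]
    (T : V → EuclideanSpace ℝ (Fin n) →L[ℝ] EuclideanSpace ℝ (Fin n)) (hT : Continuous T)
    (hTn : ∀ x, T (-x) = -T x) (hsy : ∀ x, Sy (T x)) (hT0 : ∀ x, x ≠ 0 → T x ≠ 0)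
    {K : Set V} (hK : IsCompact K) (h0 : 0 ∉ K)
    (hno : ∀ (χ' : Col (EuclideanSpace ℝ (Fin n)) {i // i ∉ χ.C Wᗮ}) (L : Lab χ'),
      ∃ δ : ℝ, 0 < δ ∧ ∀ a ∈ K, ∀ b ∈ K, dist a b < δ →
        χ'.c (L.v (T a)) = χ'.c (L.v (T b)) → L.sg (T b) = L.sg (T a))
    (hfan : FanEx V {i // i ∉ χ.C Wᗮ} K) (I : Set κ) (hI : I ⊆ (χ.C Wᗮ)ᶜ) :
    ∃ U U' : Submodule ℝ E, U ≤ W ∧ U' ≤ W ∧ U ⟂ U' ∧
      Module.finrank ℝ U + Module.finrank ℝ U' = n ∧ χ.C U = I ∧ χ.C U' = (χ.C Wᗮ)ᶜ \ I := by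
  obtain ⟨j, hj⟩ := exists_param W hn
  have hjW : ∀ x, j x ∈ W := by
    intro x
    rw [← hj]
    exact ⟨x, rfl⟩
  have hP : ∀ x, ‖x‖ = 1 → χ.c (j x) ∉ χ.C Wᗮ := by
    intro x hx
    have h1 : χ.c (j x) ∈ χ.C W := ⟨j x, hjW x, χ.mem_F (by rw [j.norm_map, hx])⟩
    exact (Set.disjoint_left.1 (χ.C_disjoint' W)) h1
  obtain ⟨i0⟩ := (inferInstance : Nonempty {i // i ∉ χ.C Wᗮ})
  set χ' := χ.pull j (fun i => i ∉ χ.C Wᗮ) i0 hP with hχ'
  obtain ⟨U0, h1, h2⟩ := surj χ' T hT hTn hsy hT0 hK h0 (hno χ') hfan {i | (i : κ) ∈ I}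
  have hjinj : Function.Injective j.toLinearMap := j.injective
  have hrk : ∀ V : Submodule ℝ (EuclideanSpace ℝ (Fin n)),
      Module.finrank ℝ (V.map j.toLinearMap) = Module.finrank ℝ V := fun V =>
    (LinearEquiv.finrank_eq (Submodule.equivMapOfInjective _ hjinj V)).symm
  have hUW : ∀ V : Submodule ℝ (EuclideanSpace ℝ (Fin n)), V.map j.toLinearMap ≤ W := by
    rintro V _ ⟨x, -, rfl⟩
    exact hjW x
  have hort : U0.map j.toLinearMap ⟂ (U0ᗮ).map j.toLinearMap := by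
    rw [Submodule.isOrtho_iff_inner_eq]
    rintro _ ⟨x, hx, rfl⟩ _ ⟨y, hy, rfl⟩
    show ⟪j x, j y⟫ = 0
    rw [j.inner_map_map]
    exact (Submodule.mem_orthogonal U0 y).1 hy x hx
  have hCU : I ⊆ χ.C (U0.map j.toLinearMap) := by
    intro i hi
    have h3 : (⟨i, hI hi⟩ : {i // i ∉ χ.C Wᗮ}) ∈ χ'.C U0 := by rw [h1]; exact hi
    obtain ⟨y, hy, hyF⟩ := h3
    exact ⟨j y, ⟨y, hy, rfl⟩, χ.pull_F j _ i0 hP hyF⟩
  have hCU' : (χ.C Wᗮ)ᶜ \ I ⊆ χ.C ((U0ᗮ).map j.toLinearMap) := by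
    rintro i ⟨hi1, hi2⟩
    have h3 : (⟨i, hi1⟩ : {i // i ∉ χ.C Wᗮ}) ∈ χ'.C U0ᗮ := by rw [h2]; exact hi2
    obtain ⟨y, hy, hyF⟩ := h3
    exact ⟨j y, ⟨y, hy, rfl⟩, χ.pull_F j _ i0 hP hyF⟩
  have hd := χ.C_disjoint hort
  have hWd : ∀ V : Submodule ℝ (EuclideanSpace ℝ (Fin n)),
      ∀ i ∈ χ.C (V.map j.toLinearMap), i ∉ χ.C Wᗮ := by
    intro V i hi
    exact (Set.disjoint_left.1 (χ.C_disjoint' W)) (χ.C_mono (hUW V) hi)
  refine ⟨U0.map j.toLinearMap, (U0ᗮ).map j.toLinearMap, hUW _, hUW _, hort, ?_,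
    Set.Subset.antisymm (fun i hi => ?_) hCU, Set.Subset.antisymm (fun i hi => ?_) hCU'⟩
  · rw [hrk, hrk, U0.finrank_add_finrank_orthogonal, finrank_euclideanSpace_fin]
  · by_contra hiI
    exact (Set.disjoint_left.1 hd) hi (hCU' ⟨hWd _ i hi, hiI⟩)
  · refine ⟨hWd _ i hi, fun hiI => ?_⟩
    exact (Set.disjoint_left.1 hd) (hCU hiI) hi

end sub

end P052H704
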