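import Vale.Agent.P052.R2.H353.Defs
import Vale.Agent.P052.R2.H938.Lin
import Vale.Agent.P052.R2.H704.Surj

/-! # The modules M3, M4(1), (0) in the form of the specification -/

namespace P052D

open scoped RealInnerProductSpace
open Module

variable {n N : ℕ}

/-- the colouring in the general form -/
noncomputable def Col.gen (C : Col n N) : P052H704.Col (E n) (Fin N) where
  c := fun x => if ‖x‖ = 1 then C.c x else C.c 0
  neg := fun x => by
    by_cases h : ‖x‖ = 1
    · rw [if_pos (by rw [norm_neg]; exact h), if_pos h, C.even x h]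
    · rw [if_neg (by rw [norm_neg]; exact h), if_neg h]
  ε := C.ε
  pos := C.ε_pos
  far := fun x y hx hy hxy => by
    rw [if_pos hx, if_pos hy] at hxy
    exact C.sep x y hx hy hxy

lemma Col.gen_c (C : Col n N) {x : E n} (hx : ‖x‖ = 1) : C.gen.c x = C.c x := if_pos hx

lemma Col.gen_F (C : Col n N) (i : Fin N) : C.gen.F i = C.F i := by
  have h : {x | ‖x‖ = 1 ∧ C.gen.c x = i} = {x | ‖x‖ = 1 ∧ C.c x = i} := by
    ext x
    constructor
    · rintro ⟨h1, h2⟩; exact ⟨h1, by rw [← C.gen_c h1]; exact h2⟩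
    · rintro ⟨h1, h2⟩; exact ⟨h1, by rw [C.gen_c h1]; exact h2⟩
  unfold P052H704.Col.F Col.F
  rw [h]

lemma Col.gen_C (C : Col n N) (U : Submodule ℝ (E n)) : C.gen.C U = C.cs U := by
  ext i
  constructor
  · rintro ⟨y, hy, h⟩; exact ⟨y, hy, by rw [← C.gen_F]; exact h⟩
  · rintro ⟨y, hy, h⟩; exact ⟨y, hy, by rw [C.gen_F]; exact h⟩

lemma S_ne {A : S n} (hA : A ≠ 0) : A.1 ≠ 0 := fun h => hA (Subtype.ext h)

lemma ne_zero_of_unit {A : S n} (hA : ‖A‖ = 1) : A ≠ 0 := by
  intro h
  have h1 : ‖A.1‖ = 1 := hA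
  have h2 : A.1 = 0 := by rw [h]; rfl
  rw [h2, norm_zero] at h1
  exact zero_ne_one h1

/-- M3 -/
theorem exists_lab (C : Col n N) : Nonempty (Lab C) := by
  obtain ⟨L⟩ := P052H704.exists_lab C.gen
  have hu : ∀ A : S n, A ≠ 0 → ‖L.v A.1‖ = 1 := fun A hA => L.norm_v A.1 A.2 (S_ne hA)
  have hw : ∀ A : S n, A ≠ 0 → ‖L.w (C.c (L.v A.1))‖ = 1 := by
    intro A hA
    rw [← C.gen_c (hu A hA)]
    exact L.norm_w _ (hu A hA)
  refine ⟨{ sg := fun A => L.sg A.1
            v := fun A => L.v A.1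
            w := L.w
            unit := hu
            eig := ?_
            neg_v := fun A hA => L.v_neg A.1 (S_ne hA)
            neg_sg := fun A hA => L.sg_neg A.1 (S_ne hA)
            w_unit := hw
            w_col := ?_
            w_pos := ?_ }⟩
  · intro A hA
    have h1 := L.eig A.1 A.2 (S_ne hA)
    rw [P052H704.sgn] at h1
    exact h1
  · intro A hA
    have h1 := L.col_w _ (hu A hA)
    rw [C.gen_c (hu A hA)] at h1
    rw [← C.gen_c (hw A hA)]
    exact h1
  · intro A hA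
    have h1 := L.lift A.1 A.2 (S_ne hA)
    rw [C.gen_c (hu A hA)] at h1
    exact C.ε_pos.trans h1

/-- M3: no complementary labels at small distance -/
theorem Lab.no_compl {C : Col n N} (L : Lab C) (A B : S n) (hA : ‖A‖ = 1)
    (hB : ‖B‖ = 1) (h : ‖A - B‖ < C.ε) (hc : C.c (L.v A) = C.c (L.v B)) : L.sg A = L.sg B := by
  have hA0 : A ≠ 0 := ne_zero_of_unit hA
  have hB0 : B ≠ 0 := ne_zero_of_unit hB
  by_contra hne
  have h1 := L.eig A hA0
  have h2 := L.eig B hB0
  have h3 := C.sep _ _ (L.unit A hA0) (L.unit B hB0) hc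
  rw [hA, mul_one] at h1
  rw [hB, mul_one] at h2
  set x := L.v A with hx
  set y := L.v B with hy
  set a : ℝ := if L.sg A then 1 else -1 with ha
  set b : ℝ := if L.sg B then 1 else -1 with hb
  have hab : a - b = 2 ∨ a - b = -2 := by
    rw [ha, hb]
    cases h4 : L.sg A <;> cases h5 : L.sg B <;> simp_all <;> norm_num
  have h4 : ⟪x, (A - B : S n).1 y⟫ = (a - b) * ⟪x, y⟫ := by
    have h5 : (A - B : S n).1 y = A.1 y - B.1 y := rfl
    rw [h5, inner_sub_right, ← A.2 x y, h1, h2, real_inner_smul_left, real_inner_smul_right]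
    ring
  have h5 : |⟪x, (A - B : S n).1 y⟫| ≤ ‖A - B‖ := by
    refine (abs_real_inner_le_norm _ _).trans ?_
    rw [hx, L.unit A hA0, one_mul]
    refine ((A - B : S n).1.le_opNorm _).trans ?_
    rw [hy, L.unit B hB0, mul_one]
    exact le_rfl
  have h6 : |a - b| = 2 := by
    rcases hab with h7 | h7 <;> rw [h7] <;> norm_num
  rw [h4, abs_mul, h6] at h5
  have := C.ε_pos
  linarith

end P052D
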