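import Vale.Agent.P052.R2.H704.SpecA
import Vale.Agent.P052.R2.H353.KeyAsm

/-! # The module M4(1) in the form of the specification -/

namespace P052D

open scoped RealInnerProductSpace
open Module

lemma isCompact_unit_S (n : ℕ) : IsCompact {A : S n | ‖A‖ = 1} := by
  have hprop : ProperSpace (E n →L[ℝ] E n) := FiniteDimensional.proper_real _
  have h1 : {A : S n | ‖A‖ = 1} =
      (fun A : S n => A.1) ⁻¹' Metric.sphere (0 : E n →L[ℝ] E n) 1 := by
    ext A
    rw [Set.mem_preimage, mem_sphere_zero_iff_norm]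
    rfl
  rw [h1]
  exact (Submodule.closed_of_finiteDimensional (S n)).isClosedEmbedding_subtypeVal.isCompact_preimage
    (isCompact_sphere _ _)

/-- no complementary labels, for the general labels -/
lemma gen_no_compl {n N : ℕ} {C : Col n N} (L : P052H704.Lab C.gen) (A B : S n) (hA : ‖A‖ = 1)
    (hB : ‖B‖ = 1) (hAB : ‖A - B‖ < C.ε) (hc : C.gen.c (L.v A.1) = C.gen.c (L.v B.1)) :
    L.sg A.1 = L.sg B.1 := by
  by_contra hne
  have hs : L.sg B.1 = !(L.sg A.1) := Bool.eq_not_iff.2 (fun h => hne h.symm)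
  have h1 := L.no_compl A.2 (S_ne (ne_zero_of_unit hA)) B.2 (S_ne (ne_zero_of_unit hB)) hs hc
  have hA1 : ‖A.1‖ = 1 := hA
  have hB1 : ‖B.1‖ = 1 := hB
  have hAB1 : ‖A.1 - B.1‖ < C.ε := hAB
  rw [hA1, hB1] at h1
  have h2 : C.gen.ε = C.ε := rfl
  have h3 := C.ε_pos
  rw [h2] at h1
  linarith

/-- a full tuple gives a family indexed by the colours -/
lemma family_of_full {V : Type*} [NormedAddCommGroup V] {N : ℕ} (hN1 : 1 ≤ N) {δ : ℝ}
    (H : Hemi V N δ) (ℓ : V → Lb N) (σ : Fin N → Bool)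
    (h1 : open Classical in
      ev (fun l => if (l.map ℓ : Multiset (Lb N)) = full σ then (1 : ZMod 2) else 0)
        (H.Z (N - 1)) = 1) :
    ∃ a : Fin N → V, (∀ i, ‖a i‖ = 1) ∧ (∀ i j, ‖a i - a j‖ < δ) ∧ ∀ i, ℓ (a i) = (σ i, i) := by
  classical
  have h2 : ∃ l ∈ H.Z (N - 1), (l.map ℓ : Multiset (Lb N)) = full σ := by
    by_contra hcon
    push Not at hcon
    have h3 : ev (fun l : List V => if (l.map ℓ : Multiset (Lb N)) = full σ
        then (1 : ZMod 2) else 0) (H.Z (N - 1)) = 0 := by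
      unfold ev
      apply List.sum_eq_zero
      intro x hx
      obtain ⟨l, hl, rfl⟩ := List.mem_map.1 hx
      exact if_neg (hcon l hl)
    have h4 : (0 : ZMod 2) = 1 := h3.symm.trans h1
    exact zero_ne_one h4
  obtain ⟨l, hl, hlf⟩ := h2
  obtain ⟨-, hunit, hmesh⟩ := H.mem_Z (by omega) hl
  have h3 : ∀ i : Fin N, ∃ A ∈ l, ℓ A = (σ i, i) := by
    intro i
    have h4 : (σ i, i) ∈ full σ := by
      unfold full
      exact Multiset.mem_map.2 ⟨i, Finset.mem_univ i, rfl⟩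
    rw [← hlf, Multiset.mem_coe, List.mem_map] at h4
    exact h4
  choose a ha1 ha2 using h3
  exact ⟨a, fun i => hunit _ (ha1 i), fun i j => hmesh _ (ha1 i) _ (ha1 j), ha2⟩

/-- M4(1): localization, from the statements `exists_hemi` and `fan_full` -/
theorem Col.loc_of_modules {n N : ℕ} (hN1 : 1 ≤ N) (C : Col n N)
    (hemi : ∀ δ : ℝ, 0 < δ → Nonempty (Hemi (S n) N δ))
    (fan_full : ∀ (δ : ℝ) (H : Hemi (S n) N δ) (ℓ : S n → Lb N)
      (_ : ∀ x, ‖x‖ = 1 → ℓ (-x) = (!(ℓ x).1, (ℓ x).2))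
      (_ : ∀ x y, ‖x‖ = 1 → ‖y‖ = 1 → ‖x - y‖ < δ → (ℓ x).2 = (ℓ y).2 → (ℓ x).1 = (ℓ y).1)
      (σ : Fin N → Bool), open Classical in
      ev (fun l => if (l.map ℓ : Multiset (Lb N)) = full σ then (1 : ZMod 2) else 0)
        (H.Z (N - 1)) = 1)
    (I : Set (Fin N)) : ∃ U : Submodule ℝ (E n), C.cs U = I ∧ C.cs Uᗮ = Iᶜ := by
  classical
  obtain ⟨L⟩ := P052H704.exists_lab C.gen
  have hne : Nonempty (Fin N) := ⟨⟨0, hN1⟩⟩
  obtain ⟨U, h1, h2⟩ := L.loc (isCompact_unit_S n) (fun A : S n => A.1) continuous_subtype_val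
    (fun A _ => A.2) (fun A hA => S_ne (ne_zero_of_unit hA)) I (fun δ hδ => by
      obtain ⟨H⟩ := hemi (min δ C.ε) (lt_min hδ C.ε_pos)
      have h1 := fan_full (min δ C.ε) H (fun A => (L.sg A.1, C.gen.c (L.v A.1)))
        (fun A hA => by
          have hA0 := S_ne (ne_zero_of_unit hA)
          show (L.sg (-A.1), C.gen.c (L.v (-A.1))) = (!(L.sg A.1), C.gen.c (L.v A.1))
          rw [L.sg_neg _ hA0, L.v_neg _ hA0])
        (fun A B hA hB hAB hc => gen_no_compl L A B hA hB (hAB.trans_le (min_le_right _ _)) hc)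
        (fun i => decide (i ∈ I))
      obtain ⟨a, ha1, ha2, ha3⟩ := family_of_full hN1 H _ _ h1
      refine ⟨a, ha1, fun i j => ?_, fun i => ?_⟩
      · have h5 : dist (a i) (a j) = ‖(a i).1 - (a j).1‖ := by
          rw [Subtype.dist_eq, dist_eq_norm]
        rw [h5]
        exact (ha2 i j).trans_le (min_le_left _ _)
      · have h4 := ha3 i
        rw [Prod.mk.injEq] at h4
        refine ⟨h4.2, ?_⟩
        rw [h4.1, decide_eq_true_iff])
  rw [C.gen_C] at h1 h2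
  exact ⟨U, h1, h2⟩

end P052D
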