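import Vale.Agent.P052.R2.H704.Loc

/-! # The space of symmetric matrices -/

open scoped RealInnerProductSpace

namespace P052H704

/-- the symmetric map with the matrix `a s(i, j)` -/
noncomputable def symT (n : ℕ) : (Sym2 (Fin n) → ℝ) →ₗ[ℝ]
    (EuclideanSpace ℝ (Fin n) →L[ℝ] EuclideanSpace ℝ (Fin n)) where
  toFun a := LinearMap.toContinuousLinearMap
    { toFun := fun x => WithLp.toLp 2 (fun i => ∑ j, a s(i, j) * x j)
      map_add' := by
        intro x y
        ext i
        simp [mul_add, Finset.sum_add_distrib]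
      map_smul' := by
        intro r x
        ext i
        simp [Finset.mul_sum, mul_left_comm] }
  map_add' := by
    intro a b
    ext x i
    simp [add_mul, Finset.sum_add_distrib]
  map_smul' := by
    intro r a
    ext x i
    simp [Finset.mul_sum, mul_assoc]

lemma symT_apply {n : ℕ} (a : Sym2 (Fin n) → ℝ) (x : EuclideanSpace ℝ (Fin n)) (i : Fin n) :
    symT n a x i = ∑ j, a s(i, j) * x j := rfl

lemma symT_sy {n : ℕ} (a : Sym2 (Fin n) → ℝ) : Sy (symT n a) := by
  intro x y
  simp only [PiLp.inner_apply, symT_apply, RCLike.inner_apply, conj_trivial, Finset.mul_sum,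
    Finset.sum_mul]
  rw [Finset.sum_comm]
  refine Finset.sum_congr rfl (fun i _ => Finset.sum_congr rfl (fun j _ => ?_))
  rw [Sym2.eq_swap]
  ring

lemma symT_continuous (n : ℕ) : Continuous (symT n) := (symT n).continuous_of_finiteDimensional

lemma symT_injective (n : ℕ) : Function.Injective (symT n) := by
  classical
  rw [injective_iff_map_eq_zero]
  intro a ha
  funext z
  induction z using Sym2.ind with
  | _ i j =>
    have h1 : symT n a (EuclideanSpace.single j 1) i = 0 := by
      rw [ha]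
      rfl
    rw [symT_apply] at h1
    simpa [PiLp.single_apply] using h1

lemma symT_ne_zero {n : ℕ} {a : Sym2 (Fin n) → ℝ} (ha : a ≠ 0) : symT n a ≠ 0 := by
  intro h
  apply ha
  apply symT_injective n
  rw [h, map_zero]

lemma card_sym2 (n : ℕ) : Fintype.card (Sym2 (Fin n)) = n * (n + 1) / 2 := by
  rw [Sym2.card, Fintype.card_fin, Nat.choose_two_right, Nat.add_sub_cancel, mul_comm]

/-- **Localization**, for the coordinates of symmetric matrices. -/
theorem loc_sym {n : ℕ} {κ : Type*} [Finite κ] [Nonempty κ] {χ : Col (EuclideanSpace ℝ (Fin n)) κ}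
    (L : Lab χ) {K : Set (Sym2 (Fin n) → ℝ)} (hK : IsCompact K) (h0 : 0 ∉ K) (I : Set κ)
    (h : ∀ δ : ℝ, 0 < δ → ∃ a : κ → Sym2 (Fin n) → ℝ, (∀ i, a i ∈ K) ∧
      (∀ i j, dist (a i) (a j) < δ) ∧
      ∀ i, χ.c (L.v (symT n (a i))) = i ∧ (L.sg (symT n (a i)) = true ↔ i ∈ I)) :
    ∃ U : Submodule ℝ (EuclideanSpace ℝ (Fin n)), χ.C U = I ∧ χ.C Uᗮ = Iᶜ :=
  L.loc hK (symT n) (symT_continuous n) (fun a _ => symT_sy a)
    (fun a ha => symT_ne_zero (by rintro rfl; exact h0 ha)) I h

/-- complementary labels are far apart, in a compact set not containing `0` -/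
theorem exists_no_compl {n : ℕ} {κ : Type*} {χ : Col (EuclideanSpace ℝ (Fin n)) κ}
    (L : Lab χ) {K : Set (Sym2 (Fin n) → ℝ)} (hK : IsCompact K) (h0 : 0 ∉ K) :
    ∃ δ : ℝ, 0 < δ ∧ ∀ a ∈ K, ∀ b ∈ K, dist a b < δ →
      χ.c (L.v (symT n a)) = χ.c (L.v (symT n b)) → L.sg (symT n b) = L.sg (symT n a) := by
  by_cases hne : K.Nonempty
  · obtain ⟨a0, ha0, hmin⟩ := hK.exists_isMinOn hne (f := fun a => ‖symT n a‖)
      (symT_continuous n).norm.continuousOn
    set r := ‖symT n a0‖ with hr
    have hr0 : 0 < r := norm_pos_iff.2 (symT_ne_zero (by rintro rfl; exact h0 ha0))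
    let Tc := LinearMap.toContinuousLinearMap (symT n)
    have hTc : ∀ a, Tc a = symT n a := fun a => rfl
    refine ⟨r * χ.ε / (‖Tc‖ + 1), by have := χ.pos; positivity, fun a ha b hb hab hc => ?_⟩
    by_contra hs
    have hs' : L.sg (symT n b) = !(L.sg (symT n a)) := by
      cases h1 : L.sg (symT n b) <;> cases h2 : L.sg (symT n a) <;> simp_all
    have ha0' : a ≠ 0 := by rintro rfl; exact h0 ha
    have hb0' : b ≠ 0 := by rintro rfl; exact h0 hb
    have h1 := L.no_compl (symT_sy a) (symT_ne_zero ha0') (symT_sy b) (symT_ne_zero hb0') hs' hc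
    have h2 : r ≤ ‖symT n a‖ := hmin ha
    have h3 : ‖symT n a - symT n b‖ ≤ (‖Tc‖ + 1) * dist a b := by
      rw [← hTc, ← hTc, ← map_sub, dist_eq_norm]
      refine (Tc.le_opNorm _).trans ?_
      gcongr
      linarith
    have h4 : (‖Tc‖ + 1) * dist a b < r * χ.ε := by
      rw [lt_div_iff₀ (by positivity)] at hab
      linarith
    have h5 : r * χ.ε ≤ (‖symT n a‖ + ‖symT n b‖) * χ.ε := by
      have := norm_nonneg (symT n b)
      have := χ.pos
      gcongr
      linarith
    linarith
  · refine ⟨1, one_pos, fun a ha => absurd ⟨a, ha⟩ hne⟩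

end P052H704
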